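import Mathlib
import Vale.Agent.P260.Defs

/-!
# P260 climb, V2, part 1: invariant means on bounded functions from Følner's condition
-/

namespace Vale.Agent.P260.H103

open Filter Topology

/-- A left-invariant mean on bounded real functions. -/
def IsMean (H : Type*) [Group H] (m : (H → ℝ) → ℝ) : Prop :=
  (∀ f g : H → ℝ, (∃ K, ∀ h, |f h| ≤ K) → (∃ K, ∀ h, |g h| ≤ K) → m (f + g) = m f + m g) ∧
    (∀ f : H → ℝ, (∃ K, ∀ h, |f h| ≤ K) → (∀ h, 0 ≤ f h) → 0 ≤ m f) ∧
    (∀ c : ℝ, m (fun _ => c) = c) ∧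
    ∀ (f : H → ℝ) (k : H), (∃ K, ∀ h, |f h| ≤ K) → m (fun h => f (k * h)) = m f

/-- The average over a translate of a Følner set. -/
theorem avg_translate {Γ : Type*} [Group Γ] [DecidableEq Γ] (F : Finset Γ) (k : Γ) (f : Γ → ℝ)
    (K : ℝ) (hf : ∀ h, |f h| ≤ K) :
    |∑ x ∈ F, f (k * x) - ∑ x ∈ F, f x| ≤ 2 * K * (((F.image fun x => k * x) \ F).card : ℝ) := by
  set G : Finset Γ := F.image fun x => k * x with hG
  have h1 : ∑ x ∈ F, f (k * x) = ∑ x ∈ G, f x := by
    rw [hG, Finset.sum_image]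
    intro a _ b _ hab
    exact mul_left_cancel hab
  have hc : G.card = F.card := Finset.card_image_of_injective _ (mul_right_injective k)
  have h2 : (G \ F).card = (F \ G).card := by
    have a1 := Finset.card_sdiff_add_card_inter G F
    have a2 := Finset.card_sdiff_add_card_inter F G
    rw [Finset.inter_comm F G] at a2
    omega
  have h3 : ∑ x ∈ G, f x - ∑ x ∈ F, f x = ∑ x ∈ G \ F, f x - ∑ x ∈ F \ G, f x := by
    have a1 := Finset.sum_inter_add_sum_sdiff G F f
    have a2 := Finset.sum_inter_add_sum_sdiff F G f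
    rw [Finset.inter_comm F G] at a2
    linarith
  have hb : ∀ s : Finset Γ, |∑ x ∈ s, f x| ≤ s.card * K := by
    intro s
    refine (Finset.abs_sum_le_sum_abs _ _).trans ?_
    calc ∑ x ∈ s, |f x| ≤ ∑ _x ∈ s, K := Finset.sum_le_sum fun x _ => hf x
      _ = s.card * K := by rw [Finset.sum_const, nsmul_eq_mul]
  rw [h1, h3]
  refine (abs_sub _ _).trans ?_
  have a1 := hb (G \ F)
  have a2 := hb (F \ G)
  rw [← h2] at a2
  linarith

theorem exists_mean {Γ : Type*} [Group Γ] (hF : Folner Γ) : ∃ m, IsMean Γ m := by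
  classical
  choose F hne hFE using fun (i : Finset Γ × ℕ) => hF i.1 (1 / ((i.2 : ℝ) + 1)) (by positivity)
  let U : Ultrafilter (Finset Γ × ℕ) := Ultrafilter.of atTop
  have hU : (U : Filter (Finset Γ × ℕ)) ≤ atTop := Ultrafilter.of_le atTop
  let avg : (Γ → ℝ) → (Finset Γ × ℕ) → ℝ := fun f i => (∑ x ∈ F i, f x) / (F i).card
  have hpos : ∀ i, (0 : ℝ) < (F i).card := fun i => by
    exact_mod_cast Finset.card_pos.mpr (hne i)
  have hlim : ∀ f : Γ → ℝ, (∃ K, ∀ h, |f h| ≤ K) → ∃ a, Tendsto (avg f) U (𝓝 a) := by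
    rintro f ⟨K, hK⟩
    have hmem : ∀ i, avg f i ∈ Set.Icc (-K) K := by
      intro i
      have h1 : |∑ x ∈ F i, f x| ≤ (F i).card * K := by
        refine (Finset.abs_sum_le_sum_abs _ _).trans ?_
        calc ∑ x ∈ F i, |f x| ≤ ∑ _x ∈ F i, K := Finset.sum_le_sum fun x _ => hK x
          _ = (F i).card * K := by rw [Finset.sum_const, nsmul_eq_mul]
      rw [Set.mem_Icc, ← abs_le]
      simp only [avg]
      rw [abs_div, abs_of_pos (hpos i), div_le_iff₀ (hpos i), mul_comm]
      exact h1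
    obtain ⟨a, _, ha⟩ := isCompact_Icc.ultrafilter_le_nhds (U.map (avg f)) (by
      rw [le_principal_iff, Ultrafilter.mem_coe, Ultrafilter.mem_map]
      exact Filter.mem_of_superset Filter.univ_mem fun i _ => hmem i)
    exact ⟨a, ha⟩
  let m : (Γ → ℝ) → ℝ := fun f => limUnder (U : Filter (Finset Γ × ℕ)) (avg f)
  have hm : ∀ f : Γ → ℝ, (∃ K, ∀ h, |f h| ≤ K) → Tendsto (avg f) U (𝓝 (m f)) :=
    fun f hf => tendsto_nhds_limUnder (hlim f hf)
  refine ⟨m, ?_, ?_, ?_, ?_⟩
  · rintro f g hf hg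
    have hfg : ∃ K, ∀ h, |(f + g) h| ≤ K := by
      obtain ⟨A, hA⟩ := hf
      obtain ⟨B, hB⟩ := hg
      exact ⟨A + B, fun h => (abs_add_le _ _).trans (add_le_add (hA h) (hB h))⟩
    refine tendsto_nhds_unique (hm _ hfg) (((hm f hf).add (hm g hg)).congr fun i => ?_)
    simp only [avg, Pi.add_apply]
    rw [Finset.sum_add_distrib, add_div]
  · intro f hf h0
    refine ge_of_tendsto' (hm f hf) fun i => ?_
    exact div_nonneg (Finset.sum_nonneg fun x _ => h0 x) (hpos i).le
  · intro c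
    refine tendsto_nhds_unique (hm (fun _ => c) ⟨|c|, fun _ => le_rfl⟩)
      (tendsto_const_nhds.congr fun i => ?_)
    simp only [avg]
    rw [Finset.sum_const, nsmul_eq_mul, mul_div_cancel_left₀ _ (hpos i).ne']
  · intro f k hf
    have hf' : ∃ K, ∀ h, |f (k * h)| ≤ K := by
      obtain ⟨A, hA⟩ := hf
      exact ⟨A, fun h => hA _⟩
    have h1 := (hm _ hf').sub (hm f hf)
    obtain ⟨A, hA⟩ := hf
    have hA0 : 0 ≤ A := (abs_nonneg _).trans (hA 1)
    have h2 : Tendsto (fun i : Finset Γ × ℕ => avg (fun h => f (k * h)) i - avg f i) U (𝓝 0) := by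
      have h3 : Tendsto (fun i : Finset Γ × ℕ => 2 * A * (1 / ((i.2 : ℝ) + 1))) U (𝓝 0) := by
        have h4 : Tendsto (fun i : Finset Γ × ℕ => i.2) (U : Filter (Finset Γ × ℕ)) atTop :=
          (tendsto_atTop_atTop.mpr fun b => ⟨(∅, b), fun a ha => (Prod.le_def.1 ha).2⟩).mono_left hU
        have h5 := (tendsto_one_div_add_atTop_nhds_zero_nat (𝕜 := ℝ)).comp h4
        have h6 := h5.const_mul (2 * A)
        rw [mul_zero] at h6
        exact h6
      refine squeeze_zero_norm' ?_ h3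
      have hev : ∀ᶠ i : Finset Γ × ℕ in (U : Filter (Finset Γ × ℕ)), ({k}, 0) ≤ i :=
        hU (Filter.eventually_ge_atTop _)
      filter_upwards [hev] with i hi
      have hk : k ∈ i.1 := (Prod.le_def.1 hi).1 (Finset.mem_singleton_self k)
      have h7 := avg_translate (F i) k f A hA
      have h8 := hFE i k hk
      simp only [avg]
      rw [← sub_div, Real.norm_eq_abs, abs_div, abs_of_pos (hpos i), div_le_iff₀ (hpos i)]
      calc _ ≤ 2 * A * ((((F i).image fun x => k * x) \ F i).card : ℝ) := by convert h7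
        _ ≤ 2 * A * (1 / ((i.2 : ℝ) + 1) * (F i).card) := by
          refine mul_le_mul_of_nonneg_left ?_ (by positivity)
          convert h8
        _ = _ := by ring
    have h9 := tendsto_nhds_unique h1 h2
    linarith

theorem isMean_subgroup {K : Type*} [Group K] (h : ∃ m, IsMean K m) (H : Subgroup K) :
    ∃ m, IsMean H m := by
  obtain ⟨m, h1, h2, h3, h4⟩ := h
  set r : K → K := fun p => (Quotient.mk (QuotientGroup.rightRel H) p).out with hr
  have hrel : ∀ p, p * (r p)⁻¹ ∈ H := by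
    intro p
    have h5 : QuotientGroup.rightRel H (r p) p := Quotient.mk_out p
    rwa [QuotientGroup.rightRel_apply] at h5
  have hmul : ∀ (k : H) p, r (k * p) = r p := by
    intro k p
    rw [hr]
    simp only
    congr 1
    refine Quotient.sound ?_
    change QuotientGroup.rightRel H _ _
    rw [QuotientGroup.rightRel_apply]
    have : p * ((k : K) * p)⁻¹ = ((k⁻¹ : H) : K) := by
      rw [Subgroup.coe_inv]; group
    rw [this]
    exact (k⁻¹).2
  set t : K → H := fun p => ⟨p * (r p)⁻¹, hrel p⟩ with ht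
  have htm : ∀ (k : H) p, t (k * p) = k * t p := by
    intro k p
    apply Subtype.ext
    rw [Subgroup.coe_mul]
    change (k : K) * p * (r (k * p))⁻¹ = k * (p * (r p)⁻¹)
    rw [hmul, mul_assoc]
  refine ⟨fun f => m fun p => f (t p), ?_, ?_, ?_, ?_⟩
  · rintro f g ⟨A, hA⟩ ⟨B, hB⟩
    exact h1 _ _ ⟨A, fun p => hA _⟩ ⟨B, fun p => hB _⟩
  · rintro f ⟨A, hA⟩ h0
    exact h2 _ ⟨A, fun p => hA _⟩ fun p => h0 _
  · intro c
    exact h3 c
  · rintro f k ⟨A, hA⟩
    have h5 := h4 (fun p => f (t p)) k ⟨A, fun p => hA _⟩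
    simp only [htm] at h5
    exact h5

end Vale.Agent.P260.H103
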