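import Mathlib
import Vale.Agent.P260.H324.V4
import Vale.Agent.P260.H708.Dual

/-!
# P260 climb, W5, part 1: derivations from the Euler characteristic
-/

namespace Vale.Agent.P260.H103

open MonoidAlgebra Vale.Agent.P260.H493
open Vale.Agent.P260.H324 (au au_single av av_add av_sub av_zero av_smul av_ksmul av_surj bar_av
  inv_factor)

section

variable {Γ : Type} [Group Γ] {ι0 ι1 ι2 : Type} [Fintype ι0] [Fintype ι1] [Fintype ι2]
  [DecidableEq ι0] [DecidableEq ι1] [DecidableEq ι2]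

/-- A functional which vanishes on `im d̄₁` but not on `ker d̄₀` gives a derivation which is not
inner. -/
theorem exists_der
    (d0 : (ι1 → MonoidAlgebra ℚ Γ) →ₗ[MonoidAlgebra ℚ Γ] (ι0 → MonoidAlgebra ℚ Γ))
    (d1 : (ι2 → MonoidAlgebra ℚ Γ) →ₗ[MonoidAlgebra ℚ Γ] (ι1 → MonoidAlgebra ℚ Γ))
    (ω : Γ → ℚ) (ε : (ι0 → MonoidAlgebra ℚ Γ) →ₗ[ℚ] ℚ)
    (eps_smul : ∀ (g : Γ) (v), ε (MonoidAlgebra.single g (1 : ℚ) • v) = ω g * ε v)
    (eps_surj : Function.Surjective ε)
    (ex0 : ∀ v, ε v = 0 ↔ ∃ w, d0 w = v)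
    (ex1 : ∀ v, d0 v = 0 → ∃ w, d1 w = v)
    (φ : (ι1 → ℚ) →ₗ[ℚ] ℚ)
    (h1 : ∀ c, φ (H324.bar d1 c) = 0) (h2 : ∃ c, H324.bar d0 c = 0 ∧ φ c ≠ 0) :
    ∃ θ : Γ → ℚ, (∀ a b, θ (a * b) = ω b * θ a + θ b) ∧
      ¬ ∃ c, ∀ g, θ g = c * (1 - ω g) := by
  obtain ⟨v₀, hv₀⟩ := eps_surj 1
  have hωm : ∀ a b, ω (a * b) = ω a * ω b := by
    intro a b
    have e1 := eps_smul (a * b) v₀
    have e2 := eps_smul a (single b (1 : ℚ) • v₀)
    rw [smul_smul, single_mul_single, one_mul, e1, eps_smul b v₀, hv₀, mul_one, mul_one] at e2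
    exact e2
  -- the functional on `F₁`
  let φ' : (ι1 → MonoidAlgebra ℚ Γ) →ₗ[ℚ] ℚ :=
    { toFun := fun v => φ (av v)
      map_add' := fun v w => by rw [av_add, map_add]
      map_smul' := fun a v => by rw [av_ksmul, map_smul]; rfl }
  have hφ' : ∀ v, φ' v = φ (av v) := fun v => rfl
  have hφd : ∀ w, φ' (d1 w) = 0 := fun w => by rw [hφ', ← bar_av, h1]
  have hφg : ∀ (g : Γ) w, φ' (single g (1 : ℚ) • w) = φ' w := fun g w => by
    rw [hφ', hφ', av_smul, au_single, one_smul]
  let D : (ι1 → MonoidAlgebra ℚ Γ) →ₗ[ℚ] (ι0 → MonoidAlgebra ℚ Γ) :=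
    { toFun := fun v => d0 v
      map_add' := fun v w => map_add _ v w
      map_smul' := fun a v => map_k_smul _ a v }
  have hD : ∀ v, D v = d0 v := fun v => rfl
  obtain ⟨s, hs⟩ := D.rangeRestrict.exists_rightInverse_of_surjective
    (LinearMap.range_eq_top.2 D.surjective_rangeRestrict)
  obtain ⟨f, hf⟩ := LinearMap.exists_extend (φ' ∘ₗ s)
  have hfD : ∀ w, f (d0 w) = φ' w := by
    intro w
    have h3 : f (d0 w) = φ' (s (D.rangeRestrict w)) := by
      exact LinearMap.congr_fun hf (D.rangeRestrict w)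
    have h4 : d0 (s (D.rangeRestrict w)) = d0 w := by
      have := LinearMap.congr_fun hs (D.rangeRestrict w)
      have := congrArg Subtype.val this
      simpa [hD] using this
    have h5 : d0 (s (D.rangeRestrict w) - w) = 0 := by rw [map_sub, h4, sub_self]
    obtain ⟨u, hu⟩ := ex1 _ h5
    have h6 : φ' (s (D.rangeRestrict w) - w) = 0 := by rw [← hu]; exact hφd u
    rw [map_sub, sub_eq_zero] at h6
    rw [h3, h6]
  have hfg : ∀ (g : Γ) v, ε v = 0 → f (single g (1 : ℚ) • v) = f v := by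
    intro g v hv
    obtain ⟨w, rfl⟩ := (ex0 v).1 hv
    rw [← LinearMap.map_smul, hfD, hfD, hφg]
  let θ : Γ → ℚ := fun g => f (single g (1 : ℚ) • v₀ - ω g • v₀)
  have hθd : ∀ g, θ g = f (single g (1 : ℚ) • v₀ - ω g • v₀) := fun g => rfl
  refine ⟨θ, ?_, ?_⟩
  · intro a b
    have h3 : (single (a * b) (1 : ℚ) : MonoidAlgebra ℚ Γ) • v₀ - ω (a * b) • v₀ =
        single a (1 : ℚ) • (single b (1 : ℚ) • v₀ - ω b • v₀) +
          ω b • (single a (1 : ℚ) • v₀ - ω a • v₀) := by
      rw [smul_sub, smul_smul, single_mul_single, one_mul, smul_sub, smul_smul (ω b), hωm,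
        smul_comm (single a (1 : ℚ)) (ω b) v₀, mul_comm (ω b)]
      abel
    have h4 : ε (single b (1 : ℚ) • v₀ - ω b • v₀) = 0 := by
      rw [map_sub, eps_smul, map_smul, smul_eq_mul, sub_self]
    rw [hθd, hθd, hθd, h3, map_add, hfg _ _ h4, map_smul, smul_eq_mul, add_comm]
  · rintro ⟨c0, hθ⟩
    let χ : (ι0 → MonoidAlgebra ℚ Γ) →ₗ[ℚ] ℚ := f + (c0 - f v₀) • ε
    have hχ : ∀ v, χ v = f (v - ε v • v₀) + c0 * ε v := by
      intro v
      simp only [χ, LinearMap.add_apply, LinearMap.smul_apply, map_sub, map_smul, smul_eq_mul]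
      ring
    have hε : ∀ v, ε (v - ε v • v₀) = 0 := by
      intro v
      rw [map_sub, map_smul, hv₀, smul_eq_mul, mul_one, sub_self]
    have hχg : ∀ (g : Γ) v, χ (single g (1 : ℚ) • v) = χ v := by
      intro g v
      rw [hχ, hχ, eps_smul]
      have h3 : (single g (1 : ℚ) : MonoidAlgebra ℚ Γ) • v - (ω g * ε v) • v₀ =
          single g (1 : ℚ) • (v - ε v • v₀) + ε v • (single g (1 : ℚ) • v₀ - ω g • v₀) := by
        rw [smul_sub, smul_sub, smul_comm (single g (1 : ℚ)) (ε v) v₀, smul_smul, mul_comm (ω g)]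
        abel
      rw [h3, map_add, hfg _ _ (hε v), map_smul, ← hθd, hθ, smul_eq_mul]
      ring
    obtain ⟨c, hc, hφc⟩ := h2
    obtain ⟨w, rfl⟩ := av_surj ℚ Γ c
    rw [bar_av] at hc
    have h3 := inv_factor χ hχg _ hc
    apply hφc
    have h4 : ε (d0 w) = 0 := (ex0 _).2 ⟨w, rfl⟩
    rw [hχ, h4, zero_smul, sub_zero, mul_zero, add_zero, hfD, hφ'] at h3
    exact h3

/-- A derivation which is not inner gives a character on a subgroup of index at most 2. -/
theorem char_of_der (ω θ : Γ → ℚ) (hω : ∀ a b, ω (a * b) = ω a * ω b) (hω1 : ω 1 = 1)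
    (hθ : ∀ a b, θ (a * b) = ω b * θ a + θ b) (hn : ¬ ∃ c, ∀ g, θ g = c * (1 - ω g)) :
    ∃ H : Subgroup Γ, H.index ≤ 2 ∧ H.FiniteIndex ∧ ∃ χ : H → ℚ,
      (∀ a b, χ (a * b) = χ a + χ b) ∧ ∃ g, χ g ≠ 0 := by
  classical
  have hω0 : ∀ g, ω g ≠ 0 := by
    intro g h0
    have h1 := hω g g⁻¹
    rw [mul_inv_cancel, hω1, h0, zero_mul] at h1
    norm_num at h1
  by_cases hA : ∃ g, ω g ≠ 1 ∧ ω g ≠ -1
  · obtain ⟨g, h1, h2⟩ := hA
    -- a prime at which the valuation of `ω g` is not zero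
    obtain ⟨p, hp, hpv⟩ : ∃ p : ℕ, p.Prime ∧ padicValRat p (ω g) ≠ 0 := by
      have hnum : (ω g).num ≠ 0 := Rat.num_ne_zero.2 (hω0 g)
      by_cases hn1 : (ω g).num.natAbs = 1
      · have hd1 : (ω g).den ≠ 1 := by
          intro hd
          have h3 := Rat.num_div_den (ω g)
          rw [hd, Nat.cast_one, div_one] at h3
          rcases Int.natAbs_eq_iff.1 hn1 with h4 | h4
          · apply h1; rw [← h3, h4]; norm_num
          · apply h2; rw [← h3, h4]; norm_num
        obtain ⟨p, hp, hpd⟩ := Nat.exists_prime_and_dvd hd1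
        refine ⟨p, hp, ?_⟩
        have := Fact.mk hp
        rw [padicValRat_def]
        have h4 : ¬ p ∣ (ω g).num.natAbs := fun h => by
          rw [hn1] at h
          exact hp.one_lt.ne' (Nat.dvd_one.1 h)
        have h5 : padicValInt p (ω g).num = 0 := by
          rw [padicValInt, padicValNat.eq_zero_of_not_dvd h4]
        have h6 : 1 ≤ padicValNat p (ω g).den :=
          one_le_padicValNat_of_dvd (Rat.den_ne_zero _) hpd
        omega
      · obtain ⟨p, hp, hpd⟩ := Nat.exists_prime_and_dvd hn1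
        refine ⟨p, hp, ?_⟩
        have := Fact.mk hp
        rw [padicValRat_def]
        have h4 : ¬ p ∣ (ω g).den := fun h => by
          have h5 := Nat.dvd_gcd hpd h
          rw [(ω g).reduced] at h5
          exact hp.one_lt.ne' (Nat.dvd_one.1 h5)
        have h5 : padicValNat p (ω g).den = 0 := padicValNat.eq_zero_of_not_dvd h4
        have h6 : 1 ≤ padicValInt p (ω g).num := by
          rw [padicValInt]
          exact one_le_padicValNat_of_dvd (Int.natAbs_ne_zero.2 hnum) hpd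
        omega
    have := Fact.mk hp
    refine ⟨⊤, by rw [Subgroup.index_top]; norm_num, inferInstance,
      fun x => (padicValRat p (ω x) : ℚ), fun a b => ?_, ⟨g, trivial⟩, ?_⟩
    · have h3 : ω ((a * b : (⊤ : Subgroup Γ)) : Γ) = ω (a : Γ) * ω (b : Γ) := hω _ _
      change (padicValRat p (ω ((a * b : (⊤ : Subgroup Γ)) : Γ)) : ℚ) =
        padicValRat p (ω (a : Γ)) + padicValRat p (ω (b : Γ))
      rw [h3, padicValRat.mul (hω0 _) (hω0 _)]
      push_cast
      ring
    · change (padicValRat p (ω g) : ℚ) ≠ 0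
      exact_mod_cast hpv
  · push Not at hA
    have hpm : ∀ g, ω g = 1 ∨ ω g = -1 := fun g => by
      by_cases h : ω g = 1
      · exact Or.inl h
      · exact Or.inr (hA g h)
    let f : Γ →* ℤˣ :=
      { toFun := fun g => if ω g = 1 then 1 else -1
        map_one' := by rw [if_pos hω1]
        map_mul' := fun a b => by
          rcases hpm a with h3 | h3 <;> rcases hpm b with h4 | h4 <;>
            simp [hω, h3, h4] <;> norm_num }
    have hker : ∀ g, g ∈ f.ker ↔ ω g = 1 := by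
      intro g
      rw [MonoidHom.mem_ker]
      change (if ω g = 1 then (1 : ℤˣ) else -1) = 1 ↔ _
      by_cases h : ω g = 1
      · simp [h]
      · rw [if_neg h]
        constructor
        · intro h5; exact absurd h5 (by decide)
        · intro h5; exact absurd h5 h
    have hidx : f.ker.index ≤ 2 := by
      rw [Subgroup.index_ker]
      have h5 : Nat.card f.range ≤ Nat.card ℤˣ := Nat.card_le_card_of_injective _
        (Subtype.val_injective)
      refine h5.trans ?_
      rw [Nat.card_eq_fintype_card]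
      decide
    refine ⟨f.ker, hidx, inferInstance, fun x => θ x, fun a b => ?_, ?_⟩
    · change θ ((a : Γ) * (b : Γ)) = _
      rw [hθ, (hker b).1 b.2, one_mul]
    · by_contra hcon
      push Not at hcon
      have hz : ∀ g, ω g = 1 → θ g = 0 := fun g hg => hcon ⟨g, (hker g).2 hg⟩
      by_cases hB : ∃ g0, ω g0 = -1
      · obtain ⟨g0, hg0⟩ := hB
        refine hn ⟨θ g0 / 2, fun g => ?_⟩
        rcases hpm g with h3 | h3
        · rw [hz g h3, h3]; ring
        · have h4 : ω (g0⁻¹ * g) = 1 := by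
            have h5 := hω g0 (g0⁻¹ * g)
            rw [mul_inv_cancel_left, h3, hg0] at h5
            linarith
          have h5 := hθ g0 (g0⁻¹ * g)
          rw [mul_inv_cancel_left, h4, hz _ h4] at h5
          rw [h5, h3]; ring
      · push Not at hB
        refine hn ⟨0, fun g => ?_⟩
        rw [zero_mul]
        exact hz g ((hpm g).resolve_right (hB g))

end

end Vale.Agent.P260.H103
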