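import Mathlib
import Vale.Agent.P260.H103.B1a
import Vale.Agent.P260.H708.M6

/-!
# P260 climb, W5, part 2: ranks of augmented matrices
-/

namespace Vale.Agent.P260.H103

open MonoidAlgebra Vale.Agent.P260.H493
open Vale.Agent.P260.H324 (au au_single av av_add av_sub av_zero av_smul av_ksmul av_surj bar_av
  inv_factor trA trace_bar)
open Vale.Agent.P260.H708 (adj dd0 dd1 pr1 pr2 prS)

section

variable {Γ : Type} [Group Γ] {ι κ μ : Type} [Fintype ι] [Fintype κ] [Fintype μ]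
  [DecidableEq ι] [DecidableEq κ] [DecidableEq μ]

/-- The rank of the augmented map. -/
noncomputable def rk (T : (ι → MonoidAlgebra ℚ Γ) →ₗ[MonoidAlgebra ℚ Γ] (κ → MonoidAlgebra ℚ Γ)) :
    ℕ := Module.finrank ℚ (LinearMap.range (H324.bar T))

/-- The augmented matrix. -/
noncomputable def am (T : (ι → MonoidAlgebra ℚ Γ) →ₗ[MonoidAlgebra ℚ Γ] (κ → MonoidAlgebra ℚ Γ)) :
    Matrix κ ι ℚ := fun j i => au ℚ Γ (T (Pi.single i 1) j)

omit [Fintype κ] [DecidableEq κ] in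
theorem bar_eq_am
    (T : (ι → MonoidAlgebra ℚ Γ) →ₗ[MonoidAlgebra ℚ Γ] (κ → MonoidAlgebra ℚ Γ)) :
    H324.bar T = (am T).mulVecLin := by
  refine LinearMap.ext fun c => funext fun j => ?_
  rw [Matrix.mulVecLin_apply, Matrix.mulVec, dotProduct, H324.bar,
    Fintype.linearCombination_apply, Finset.sum_apply]
  refine Finset.sum_congr rfl fun i _ => ?_
  rw [Pi.smul_apply, smul_eq_mul, mul_comm]
  rfl

theorem rk_eq (T : (ι → MonoidAlgebra ℚ Γ) →ₗ[MonoidAlgebra ℚ Γ] (κ → MonoidAlgebra ℚ Γ)) :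
    rk T = (am T).rank := by
  rw [rk, bar_eq_am, Matrix.rank]

theorem au_bar (x : MonoidAlgebra ℚ Γ) : au ℚ Γ (H708.bar x) = au ℚ Γ x := by
  have h2 : x = ∑ g ∈ x.coeff.support, single g (x.coeff g) := by
    conv_lhs => rw [← sum_coeff_single x]
    rfl
  rw [h2, H708.bar_sum, map_sum, map_sum]
  refine Finset.sum_congr rfl fun g _ => ?_
  rw [H708.bar_single, au_single, au_single]

theorem am_adj (T : (ι → MonoidAlgebra ℚ Γ) →ₗ[MonoidAlgebra ℚ Γ] (κ → MonoidAlgebra ℚ Γ)) :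
    am (adj T) = (am T).transpose := by
  funext i j
  rw [Matrix.transpose_apply, am, am, H708.adj_single, au_bar]

theorem rk_adj (T : (ι → MonoidAlgebra ℚ Γ) →ₗ[MonoidAlgebra ℚ Γ] (κ → MonoidAlgebra ℚ Γ)) :
    rk (adj T) = rk T := by
  rw [rk_eq, rk_eq, am_adj, Matrix.rank_transpose]

omit [DecidableEq μ] in
theorem bar_comp (T : (ι → MonoidAlgebra ℚ Γ) →ₗ[MonoidAlgebra ℚ Γ] (κ → MonoidAlgebra ℚ Γ))
    (S : (κ → MonoidAlgebra ℚ Γ) →ₗ[MonoidAlgebra ℚ Γ] (μ → MonoidAlgebra ℚ Γ)) :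
    H324.bar (S ∘ₗ T) = H324.bar S ∘ₗ H324.bar T := by
  refine LinearMap.ext fun c => ?_
  obtain ⟨v, rfl⟩ := av_surj ℚ Γ c
  rw [LinearMap.comp_apply, bar_av, bar_av, bar_av, LinearMap.comp_apply]

/-- the rank plus the dimension of the kernel -/
theorem rk_add_ker (T : (ι → MonoidAlgebra ℚ Γ) →ₗ[MonoidAlgebra ℚ Γ] (κ → MonoidAlgebra ℚ Γ)) :
    rk T + Module.finrank ℚ (LinearMap.ker (H324.bar T)) = Fintype.card ι := by
  have := LinearMap.finrank_range_add_finrank_ker (H324.bar T)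
  rwa [Module.finrank_fintype_fun_eq_card] at this

/-- If the augmented kernel of `S` is in the augmented range of `T`. -/
theorem rk_of_ker_le
    (T : (ι → MonoidAlgebra ℚ Γ) →ₗ[MonoidAlgebra ℚ Γ] (κ → MonoidAlgebra ℚ Γ))
    (S : (κ → MonoidAlgebra ℚ Γ) →ₗ[MonoidAlgebra ℚ Γ] (μ → MonoidAlgebra ℚ Γ))
    (h : LinearMap.ker (H324.bar S) ≤ LinearMap.range (H324.bar T)) :
    Fintype.card κ ≤ rk S + rk T := by
  have h1 := rk_add_ker S
  have h2 := Submodule.finrank_mono h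
  change _ ≤ rk T at h2
  omega

/-- A complex. -/
theorem rk_of_comp
    (T : (ι → MonoidAlgebra ℚ Γ) →ₗ[MonoidAlgebra ℚ Γ] (κ → MonoidAlgebra ℚ Γ))
    (S : (κ → MonoidAlgebra ℚ Γ) →ₗ[MonoidAlgebra ℚ Γ] (μ → MonoidAlgebra ℚ Γ))
    (h : S ∘ₗ T = 0) : rk S + rk T ≤ Fintype.card κ := by
  have h1 := rk_add_ker S
  have h3 : LinearMap.range (H324.bar T) ≤ LinearMap.ker (H324.bar S) := by
    rintro _ ⟨c, rfl⟩
    obtain ⟨v, rfl⟩ := av_surj ℚ Γ c
    rw [LinearMap.mem_ker, bar_av, bar_av, ← LinearMap.comp_apply, h, LinearMap.zero_apply, av_zero]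
  have h2 := Submodule.finrank_mono h3
  change rk T ≤ _ at h2
  omega

theorem rk_le (T : (ι → MonoidAlgebra ℚ Γ) →ₗ[MonoidAlgebra ℚ Γ] (κ → MonoidAlgebra ℚ Γ)) :
    rk T ≤ Fintype.card κ := by
  have := Submodule.finrank_le (LinearMap.range (H324.bar T))
  rwa [Module.finrank_fintype_fun_eq_card] at this

end

section

variable {Γ : Type} [Group Γ] {α β κ μ : Type} [Fintype α] [Fintype β] [Fintype κ] [Fintype μ]
  [DecidableEq α] [DecidableEq β] [DecidableEq κ] [DecidableEq μ]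

/-- the rank of a block diagonal map -/
theorem rk_prS (S : (α → MonoidAlgebra ℚ Γ) →ₗ[MonoidAlgebra ℚ Γ] (κ → MonoidAlgebra ℚ Γ))
    (T : (β → MonoidAlgebra ℚ Γ) →ₗ[MonoidAlgebra ℚ Γ] (μ → MonoidAlgebra ℚ Γ)) :
    rk (prS (S ∘ₗ pr1) (T ∘ₗ pr2) : (α ⊕ β → MonoidAlgebra ℚ Γ) →ₗ[MonoidAlgebra ℚ Γ]
      (κ ⊕ μ → MonoidAlgebra ℚ Γ)) ≤ rk S + rk T := by
  let A := LinearMap.range (H324.bar S)
  let B := LinearMap.range (H324.bar T)
  let e1 : (κ → ℚ) →ₗ[ℚ] (κ ⊕ μ → ℚ) :=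
    { toFun := fun p => Sum.elim p 0
      map_add' := fun p q => by funext i; cases i <;> simp
      map_smul' := fun a p => by funext i; cases i <;> simp }
  let e2 : (μ → ℚ) →ₗ[ℚ] (κ ⊕ μ → ℚ) :=
    { toFun := fun p => Sum.elim 0 p
      map_add' := fun p q => by funext i; cases i <;> simp
      map_smul' := fun a p => by funext i; cases i <;> simp }
  have h1 : LinearMap.range (H324.bar (prS (S ∘ₗ pr1) (T ∘ₗ pr2) :
      (α ⊕ β → MonoidAlgebra ℚ Γ) →ₗ[MonoidAlgebra ℚ Γ] (κ ⊕ μ → MonoidAlgebra ℚ Γ))) ≤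
      A.map e1 ⊔ B.map e2 := by
    rintro _ ⟨c, rfl⟩
    obtain ⟨v, rfl⟩ := av_surj ℚ Γ c
    rw [bar_av, Submodule.mem_sup]
    refine ⟨e1 (av (S (pr1 v))), ⟨_, ?_, rfl⟩, e2 (av (T (pr2 v))), ⟨_, ?_, rfl⟩, ?_⟩
    · change av (S (pr1 v)) ∈ LinearMap.range (H324.bar S)
      rw [← bar_av]
      exact LinearMap.mem_range_self _ _
    · change av (T (pr2 v)) ∈ LinearMap.range (H324.bar T)
      rw [← bar_av]
      exact LinearMap.mem_range_self _ _
    · funext i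
      cases i with
      | inl i => exact add_zero _
      | inr i => exact zero_add _
  have h2 := Submodule.finrank_mono h1
  have h3 := Submodule.finrank_add_le_finrank_add_finrank (A.map e1) (B.map e2)
  have h4 := Submodule.finrank_map_le e1 A
  have h5 := Submodule.finrank_map_le e2 B
  change rk _ ≤ _ at h2
  change _ ≤ rk S at h4
  change _ ≤ rk T at h5
  omega

end

end Vale.Agent.P260.H103
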