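import Mathlib
import Vale.Agent.P260.H103.B1b

/-!
# P260 climb, W5, part 3: a virtual character from the Euler characteristic
-/

namespace Vale.Agent.P260.H103

open MonoidAlgebra Vale.Agent.P260.H493
open Vale.Agent.P260.H324 (au au_single av av_add av_sub av_zero av_smul av_ksmul av_surj bar_av
  inv_factor trA trace_bar)
open Vale.Agent.P260.H708 (adj dd0 dd1 pr1 pr2 prS)

/-- A subgroup of index at most two has a nonzero rational character. -/
def VChar (Γ : Type) [Group Γ] : Prop :=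
  ∃ H : Subgroup Γ, H.index ≤ 2 ∧ H.FiniteIndex ∧ ∃ χ : H → ℚ,
    (∀ a b, χ (a * b) = χ a + χ b) ∧ ∃ g, χ g ≠ 0

section

variable {Γ : Type} [Group Γ] {ι0 ι1 ι2 : Type} [Fintype ι0] [Fintype ι1] [Fintype ι2]
  [DecidableEq ι0] [DecidableEq ι1] [DecidableEq ι2]

theorem ker_le_range (hno : ¬ VChar Γ)
    (d0 : (ι1 → MonoidAlgebra ℚ Γ) →ₗ[MonoidAlgebra ℚ Γ] (ι0 → MonoidAlgebra ℚ Γ))
    (d1 : (ι2 → MonoidAlgebra ℚ Γ) →ₗ[MonoidAlgebra ℚ Γ] (ι1 → MonoidAlgebra ℚ Γ))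
    (ω : Γ → ℚ) (ε : (ι0 → MonoidAlgebra ℚ Γ) →ₗ[ℚ] ℚ)
    (eps_smul : ∀ (g : Γ) (v), ε (MonoidAlgebra.single g (1 : ℚ) • v) = ω g * ε v)
    (eps_surj : Function.Surjective ε)
    (ex0 : ∀ v, ε v = 0 ↔ ∃ w, d0 w = v)
    (ex1 : ∀ v, d0 v = 0 → ∃ w, d1 w = v) :
    LinearMap.ker (H324.bar d0) ≤ LinearMap.range (H324.bar d1) := by
  by_contra hnle
  obtain ⟨c, hc, hc'⟩ := SetLike.not_le_iff_exists.1 hnle
  obtain ⟨φ, hφ, hφ'⟩ := Submodule.exists_dual_map_eq_bot_of_notMem hc' inferInstance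
  obtain ⟨θ, hθ, hn⟩ := exists_der d0 d1 ω ε eps_smul eps_surj ex0 ex1 φ (fun w => by
    have : φ (H324.bar d1 w) ∈ (LinearMap.range (H324.bar d1)).map φ :=
      Submodule.mem_map_of_mem (LinearMap.mem_range_self _ _)
    rw [hφ'] at this
    simpa using this) ⟨c, by simpa using hc, hφ⟩
  obtain ⟨v₀, hv₀⟩ := eps_surj 1
  have hωm : ∀ a b, ω (a * b) = ω a * ω b := by
    intro a b
    have e1 := eps_smul (a * b) v₀
    have e2 := eps_smul a (single b (1 : ℚ) • v₀)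
    rw [smul_smul, single_mul_single, one_mul, e1, eps_smul b v₀, hv₀, mul_one, mul_one] at e2
    exact e2
  have hω1 : ω 1 = 1 := by
    have e1 := eps_smul 1 v₀
    rw [← MonoidAlgebra.one_def, one_smul, hv₀, mul_one] at e1
    exact e1.symm
  exact hno (char_of_der ω θ hωm hω1 hθ hn)

end

section

variable {k Γ : Type} [Field k] [Group Γ] {m : ℕ}

/-- the augmentation of the dual complex (proof of `H708.exists_dualRes`) -/
theorem exists_dual_aug (P : PDG k Γ (m + 1)) : ∃ (ω : Γ → k)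
    (ε : (Fin (P.r (m + 2)) → MonoidAlgebra k Γ) →ₗ[k] k),
    (∀ (g : Γ) (v), ε (MonoidAlgebra.single g (1 : k) • v) = ω g * ε v) ∧
    Function.Surjective ε ∧ ∀ v, ε v = 0 ↔ ∃ w, dd0 P w = v := by
  obtain ⟨w0, h1, h2, h3⟩ := H708.co_top_vec P
  choose f hf using H708.Rel.exists h3
  let ε : (Fin (P.r (m + 2)) → MonoidAlgebra k Γ) →ₗ[k] k :=
    { toFun := f
      map_add' := fun v w => H708.Rel.uniq h2 (hf _) ((hf v).add (hf w))
      map_smul' := fun r v => H708.Rel.uniq h2 (hf _) ((hf v).smul r) }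
  have hε : ∀ {v c}, H708.Rel P w0 v c → ε v = c := fun {v c} h => H708.Rel.uniq h2 (hf v) h
  refine ⟨fun g => f (MonoidAlgebra.single g (1 : k) • w0), ε,
    fun g v => hε (H708.Rel.gsmul h1 (hf _) (hf v)), fun c => ⟨c • w0, hε ⟨0, ?_⟩⟩,
    fun v => ⟨fun h => ?_, fun h => ?_⟩⟩
  · rw [H708.adj_ksmul, h1, map_zero, add_zero]
  · obtain ⟨a, ha⟩ := hf v
    have h4 : f v = 0 := h
    rw [h4, zero_smul, zero_add] at ha
    refine ⟨Sum.elim a v, ?_⟩
    rw [H708.dd0_apply]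
    have e1 : (pr1 (Sum.elim a v) : Fin (P.r (m + 1)) → MonoidAlgebra k Γ) = a := rfl
    have e2 : (pr2 (Sum.elim a v) : Fin (P.r (m + 2)) → MonoidAlgebra k Γ) = v := rfl
    rw [e1, e2, ha]
    exact add_sub_cancel _ _
  · obtain ⟨w, rfl⟩ := h
    refine hε ⟨pr1 w, ?_⟩
    rw [H708.pi_dd0, zero_smul, zero_add]

end

section

variable {Γ : Type} [Group Γ] {m : ℕ}

theorem rk_pi (P : PDG ℚ Γ m) : ((rk P.π : ℕ) : ℚ) = trA P.π := by
  have hpi : H324.bar P.π ∘ₗ H324.bar P.π = H324.bar P.π := by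
    rw [← bar_comp]
    congr 1
    exact LinearMap.ext P.pi_pi
  rw [← trace_bar]
  have h3 : IsIdempotentElem (H324.bar P.π) := hpi
  exact ((LinearMap.isProj_range_iff_isIdempotentElem _).2 h3).trace.symm

theorem rk_d0_lt (P : PDG ℚ Γ m) : rk (P.d 0) < P.r 0 := by
  have h3 : LinearMap.range (H324.bar (P.d 0)) < ⊤ := by
    rw [lt_top_iff_ne_top]
    intro h4
    rw [LinearMap.range_eq_top] at h4
    obtain ⟨v₀, hv₀⟩ := P.eps_surj 1
    obtain ⟨c, hc⟩ := h4 (av v₀)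
    obtain ⟨w, rfl⟩ := av_surj ℚ Γ c
    rw [bar_av] at hc
    have h5 := inv_factor P.ε P.eps_smul (v₀ - P.d 0 w) (by rw [av_sub, hc, sub_self])
    rw [map_sub, (P.ex0 _).2 ⟨w, rfl⟩, hv₀] at h5
    norm_num at h5
  have h4 := Submodule.finrank_lt h3.ne
  rw [Module.finrank_fintype_fun_eq_card, Fintype.card_fin] at h4
  exact h4

/-- If the Euler characteristic of a four-dimensional duality group is not positive then a subgroup
of index at most two has a nonzero character. -/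
theorem vchar_of_eul (P : PDG ℚ Γ 3)
    (hE : trA P.π ≤ (P.r 3 : ℚ) - P.r 2 + P.r 1 - P.r 0) : VChar Γ := by
  by_contra hno
  -- the primal complex
  have h1 := ker_le_range hno (P.d 0) (P.d 1) (fun _ => 1) P.ε
    (fun g v => by rw [P.eps_smul, one_mul]) P.eps_surj P.ex0
    (fun v hv => (P.ex 0 (by norm_num) v).1 hv)
  have h2 := rk_of_ker_le (P.d 1) (P.d 0) h1
  have h3 := rk_d0_lt P
  -- the dual complex
  obtain ⟨ω, ε, e1, e2, e3⟩ := exists_dual_aug (m := 2) P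
  have h4 := ker_le_range hno (dd0 (m := 2) P) (dd1 (m := 2) P) ω ε e1 e2 e3
    (fun v hv => (H708.dd_ex1 (m := 2) P v).1 hv)
  have h5 := rk_of_ker_le (dd1 (m := 2) P) (dd0 (m := 2) P) h4
  have h6 := rk_le (dd0 (m := 2) P)
  have h7 : rk (dd1 (m := 2) P) ≤ rk (P.d 2) + rk P.π := by
    have h8 := rk_prS (adj (P.d 2)) (adj P.π)
    rw [rk_adj, rk_adj] at h8
    exact h8
  -- the middle
  have h9 := rk_of_comp (P.d 2) (P.d 1)
    (LinearMap.ext fun v => (P.ex 1 (by norm_num) _).2 ⟨v, rfl⟩)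
  have h10 := rk_pi P
  simp only [Fintype.card_fin, Fintype.card_sum] at h2 h5 h6 h9
  rw [← h10] at hE
  have h11 : P.r 1 + 1 + P.r 3 ≤ P.r 0 + P.r 2 + rk P.π := by
    have a1 : P.r (0 + 1) = P.r 1 := rfl
    have a2 : P.r (2 + 1) = P.r 3 := rfl
    have a3 : P.r (2 + 2) = P.r 4 := rfl
    have a4 : P.r (1 + 1) = P.r 2 := rfl
    omega
  have h12 : (P.r 1 : ℚ) + 1 + P.r 3 ≤ P.r 0 + P.r 2 + rk P.π := by exact_mod_cast h11
  linarith

end

end Vale.Agent.P260.H103
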