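import Mathlib
import Vale.Agent.P260.Defs
import Vale.Agent.P260.H802.VSpec
import Vale.Agent.P260.H103.Amen
import Vale.Agent.P184.Bdl.B3

/-!
# P260 climb, V2: the weak Bass conjecture over `ℚ` for torsion-free amenable groups
-/

namespace Vale.Agent.P260.H103

open Vale.Agent.P260.H802 (StmtBass)

theorem folner_ncard {Γ : Type*} [Group Γ] (hF : Folner Γ) : Vale.Agent.P184.Folner Γ := by
  classical
  intro S ε hε
  obtain ⟨F, hne, h⟩ := hF S ε hε
  refine ⟨F, hne, fun s hs => ?_⟩
  have h1 := h s hs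
  have h2 : Set.ncard {f | f ∈ F ∧ s * f ∉ F} = ((F.image fun x => s * x) \ F).card := by
    have h3 : {f | f ∈ F ∧ s * f ∉ F} = ((F.filter fun f => s * f ∉ F : Finset Γ) : Set Γ) := by
      ext; simp
    have h4 : (F.image fun x => s * x) \ F =
        (F.filter fun f => s * f ∉ F).image (fun x => s * x) := by
      ext y
      simp only [Finset.mem_sdiff, Finset.mem_image, Finset.mem_filter]
      constructor
      · rintro ⟨⟨x, hx, rfl⟩, hy⟩
        exact ⟨x, ⟨hx, hy⟩, rfl⟩
      · rintro ⟨x, ⟨hx, hy⟩, rfl⟩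
        exact ⟨⟨x, hx, rfl⟩, hy⟩
    rw [h3, Set.ncard_coe_finset, h4, Finset.card_image_of_injective _ (mul_right_injective s)]
  rw [h2]
  convert h1

/-- The trace at the class of an element of infinite order of an idempotent matrix over `ℓ¹(Γ)`
vanishes, for amenable `Γ`. -/
theorem vanishes {Γ : Type*} [Group Γ] (hF : Folner Γ) {y : Γ} (hy : ¬ IsOfFinOrder y) :
    Vale.Agent.P184.VanishesAt y :=
  Vale.Agent.P184.vanishesAt_of_good (Vale.Agent.P184.good_of_folner (folner_ncard hF)
    (fun _ => isMean_subgroup (exists_mean hF) _) hy)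

section

variable {Γ : Type*} [Group Γ] {r : ℕ}

/-- The matrix of an endomorphism of a free module, with entries the coefficient functions. -/
noncomputable def mat (π : (Fin r → MonoidAlgebra ℚ Γ) →ₗ[MonoidAlgebra ℚ Γ]
    (Fin r → MonoidAlgebra ℚ Γ)) : Matrix (Fin r) (Fin r) (Γ → ℂ) :=
  fun i j g => (((π (Pi.single i 1)) j).coeff g : ℂ)

theorem apply_eq_sum (π : (Fin r → MonoidAlgebra ℚ Γ) →ₗ[MonoidAlgebra ℚ Γ]
    (Fin r → MonoidAlgebra ℚ Γ)) (v : Fin r → MonoidAlgebra ℚ Γ) :
    π v = ∑ k, v k • π (Pi.single k 1) := by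
  have h : v = ∑ k, v k • (Pi.single k (1 : MonoidAlgebra ℚ Γ) : Fin r → MonoidAlgebra ℚ Γ) := by
    funext j
    rw [Finset.sum_apply, Finset.sum_eq_single j]
    · simp
    · intro b _ hb
      rw [Pi.smul_apply, Pi.single_eq_of_ne (Ne.symm hb), smul_zero]
    · intro h; exact absurd (Finset.mem_univ j) h
  conv_lhs => rw [h]
  rw [map_sum]
  simp only [map_smul]

theorem isIdem_mat (π : (Fin r → MonoidAlgebra ℚ Γ) →ₗ[MonoidAlgebra ℚ Γ]
    (Fin r → MonoidAlgebra ℚ Γ)) (h : ∀ v, π (π v) = π v) :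
    Vale.Agent.P184.IsIdem (mat π) := by
  classical
  refine ⟨fun i j => ?_, fun i j g => ?_⟩
  · refine summable_of_ne_finset_zero (s := ((π (Pi.single i 1)) j).coeff.support) fun g hg => ?_
    simp only [mat]
    rw [Finsupp.notMem_support_iff.mp hg, Rat.cast_zero, norm_zero]
  · have h1 : ∀ k, ∑' h, mat π i k h * mat π k j (h⁻¹ * g) =
        (((π (Pi.single i 1) k * π (Pi.single k 1) j).coeff g : ℚ) : ℂ) := by
      intro k
      rw [tsum_eq_sum (s := ((π (Pi.single i 1)) k).coeff.support),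
        MonoidAlgebra.coeff_mul_apply_left, Finsupp.sum, Rat.cast_sum]
      · simp only [mat, Rat.cast_mul]
      · intro b hb
        simp only [mat]
        rw [Finsupp.notMem_support_iff.mp hb, Rat.cast_zero, zero_mul]
    rw [Finset.sum_congr rfl fun k _ => h1 k, ← Rat.cast_sum]
    have h2 := congrFun (apply_eq_sum π (π (Pi.single i 1))) j
    rw [h, Finset.sum_apply] at h2
    simp only [Pi.smul_apply, smul_eq_mul] at h2
    simp only [mat]
    rw [h2]
    congr 1
    rw [MonoidAlgebra.coeff_sum, Finset.sum_apply']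

/-- The sum of the traces over all classes. -/
theorem bass_of_vanish (e : Matrix (Fin r) (Fin r) (Γ → ℂ)) (S : Finset Γ)
    (hS : ∀ i j g, g ∉ S → e i j g = 0)
    (h : ∀ x : Γ, x ≠ 1 → Vale.Agent.P184.tau (ConjClasses.mk x) e = 0) :
    ∑ g ∈ S, ∑ i, e i i g = ∑ i, e i i 1 := by
  classical
  set T : Γ → ℂ := fun g => ∑ i, e i i g with hT
  have hTS : ∀ g, g ∉ S → T g = 0 := fun g hg => Finset.sum_eq_zero fun i _ => hS i i g hg
  have h1 : ∑ g ∈ S, T g = ∑ g ∈ insert 1 S, T g := by
    by_cases h1 : (1 : Γ) ∈ S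
    · rw [Finset.insert_eq_of_mem h1]
    · rw [Finset.sum_insert h1, hTS 1 h1, zero_add]
  have h2 : ∑ g ∈ insert 1 S, T g = T 1 + ∑ g ∈ S.erase 1, T g := by
    rw [← Finset.insert_erase (Finset.mem_insert_self 1 S), Finset.sum_insert
      (Finset.notMem_erase _ _), Finset.erase_insert_eq_erase]
  have h3 : ∑ g ∈ S.erase 1, T g = 0 := by
    rw [← Finset.sum_fiberwise_of_maps_to (s := S.erase 1)
      (t := (S.erase 1).image ConjClasses.mk) (g := ConjClasses.mk)
      (fun x hx => Finset.mem_image_of_mem _ hx)]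
    refine Finset.sum_eq_zero fun C hC => ?_
    obtain ⟨x, hx, rfl⟩ := Finset.mem_image.mp hC
    have hx1 : x ≠ 1 := (Finset.mem_erase.mp hx).1
    rw [← h x hx1]
    unfold Vale.Agent.P184.tau
    rw [tsum_subtype (ConjClasses.mk x).carrier fun g => ∑ i, e i i g]
    rw [tsum_eq_sum (s := (S.erase 1).filter fun g => ConjClasses.mk g = ConjClasses.mk x)]
    · refine Finset.sum_congr rfl fun g hg => ?_
      have : g ∈ (ConjClasses.mk x).carrier :=
        ConjClasses.mem_carrier_iff_mk_eq.mpr (Finset.mem_filter.mp hg).2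
      rw [Set.indicator_of_mem this]
    · intro g hg
      by_cases hgx : g ∈ (ConjClasses.mk x).carrier
      · rw [Set.indicator_of_mem hgx]
        have h4 := ConjClasses.mem_carrier_iff_mk_eq.mp hgx
        have hg1 : g ≠ 1 := by
          rintro rfl
          have h5 : IsConj (1 : Γ) x := ConjClasses.mk_eq_mk_iff_isConj.mp h4
          exact hx1 (isConj_one_right.mp h5)
        have hgS : g ∉ S := fun hgS => hg (Finset.mem_filter.mpr
          ⟨Finset.mem_erase.mpr ⟨hg1, hgS⟩, h4⟩)
        exact hTS g hgS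
      · rw [Set.indicator_of_notMem hgx]
  rw [h1, h2, h3, add_zero]

end

theorem stmtBass : StmtBass := by
  classical
  intro Γ _ hF hT r π hπ
  set S : Finset Γ := Finset.univ.biUnion fun i : Fin r => Finset.univ.biUnion fun j : Fin r =>
    ((π (Pi.single i 1)) j).coeff.support with hSdef
  have hS : ∀ i j g, g ∉ S → ((π (Pi.single i 1)) j).coeff g = 0 := by
    intro i j g hg
    by_contra hne
    apply hg
    simp only [hSdef, Finset.mem_biUnion, Finset.mem_univ, true_and]
    exact ⟨i, j, Finsupp.mem_support_iff.mpr hne⟩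
  have h1 := bass_of_vanish (mat π) S (fun i j g hg => by simp only [mat]; rw [hS i j g hg,
    Rat.cast_zero]) (fun x hx => vanishes hF (hT x hx) r (mat π) (isIdem_mat π hπ))
  simp only [mat] at h1
  rw [Finset.sum_comm] at h1
  have h2 : ∀ j, (π (Pi.single j 1) j).coeff.sum (fun _ a => a) =
      ∑ g ∈ S, (π (Pi.single j 1) j).coeff g := by
    intro j
    rw [Finsupp.sum]
    refine Finset.sum_subset ?_ ?_
    · intro g hg
      by_contra hgS
      exact Finsupp.mem_support_iff.mp hg (hS j j g hgS)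
    · intro g _ hg
      exact Finsupp.notMem_support_iff.mp hg
  rw [Finset.sum_congr rfl fun j _ => h2 j]
  exact_mod_cast h1

end Vale.Agent.P260.H103
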