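import Mathlib
import Vale.Agent.P260.H493.Spec2
import Vale.Agent.P260.H103.Bass

/-!
# P260 climb, V2, in the letters of `H493/Spec2.lean`
-/

namespace Vale.Agent.P260.H103

open Vale.Agent.P260.H493 (trAug tr1)

theorem lift_one_eq_sum {Γ : Type} [Group Γ] (x : MonoidAlgebra ℚ Γ) :
    MonoidAlgebra.lift ℚ ℚ Γ (1 : Γ →* ℚ) x = x.coeff.sum fun _ a => a := by
  rw [MonoidAlgebra.lift_apply]
  simp

/-- For torsion-free amenable groups the augmented trace of an idempotent endomorphism of a free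
module over the rational group algebra is its canonical trace. -/
theorem trAug_eq_tr1 {Γ : Type} [Group Γ] (hF : Folner Γ)
    (hT : ∀ g : Γ, g ≠ 1 → ¬ IsOfFinOrder g) {n : ℕ}
    (T : (Fin n → MonoidAlgebra ℚ Γ) →ₗ[MonoidAlgebra ℚ Γ] (Fin n → MonoidAlgebra ℚ Γ))
    (h : ∀ v, T (T v) = T v) : trAug T = tr1 T := by
  have h1 := stmtBass Γ hF hT n T h
  unfold trAug tr1
  rw [← h1]
  exact Finset.sum_congr rfl fun j _ => lift_one_eq_sum _

end Vale.Agent.P260.H103
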