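import Mathlib
import Vale.Agent.P260.H103.B1c
import Vale.Agent.P260.H103.Bass2
import Vale.Agent.P260.H81.PDZ
import Vale.Agent.P260.H856.V1
import Vale.Agent.P260.H237.Inf
import Vale.Agent.P260.H838.FP2

/-!
# P260 climb, W5, part 4: amenable `PD₄` groups have a virtual character
-/

namespace Vale.Agent.P260.H103

open MonoidAlgebra Vale.Agent.P260.H493
open Vale.Agent.P260.H145 (PD4Z)
open Vale.Agent.P260.H324 (trA exists_surj_of_char)

/-- EUL: the Euler characteristic of an amenable four-dimensional duality group is not positive. -/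
def StmtEul : Prop := ∀ (Γ : Type) [Group Γ] (P : PDG ℚ Γ 3), Folner Γ → Infinite Γ →
  ∑ j, (P.π (Pi.single j 1) j).coeff 1 ≤ (P.r 3 : ℚ) - P.r 2 + P.r 1 - P.r 0

/-- A finitely generated group with a virtual rational character has a virtual surjection to `ℤ`. -/
theorem surj_of_vchar {Γ : Type} [Group Γ] (hfg : Group.FG Γ) (h : VChar Γ) :
    ∃ H : Subgroup Γ, H.index ≤ 2 ∧ H.FiniteIndex ∧
      ∃ ψ : H →* Multiplicative ℤ, Function.Surjective ψ := by
  obtain ⟨H, hi, hf, χ, hχ, hne⟩ := h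
  refine ⟨H, hi, hf, ?_⟩
  have hH : Group.FG H := inferInstance
  obtain ⟨S, hS⟩ := (Group.fg_def.1 hH : (⊤ : Subgroup H).FG)
  exact exists_surj_of_char S hS χ hχ hne

/-- Torsion-free amenable four-dimensional duality groups over `ℚ` have a virtual surjection
to `ℤ`. -/
theorem vsurj_pdg (hE : StmtEul) {Γ : Type} [Group Γ] (hF : Folner Γ)
    (hT : ∀ g : Γ, g ≠ 1 → ¬ IsOfFinOrder g) (hfg : Group.FG Γ) (hInf : Infinite Γ)
    (P : PDG ℚ Γ 3) :
    ∃ H : Subgroup Γ, H.index ≤ 2 ∧ H.FiniteIndex ∧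
      ∃ ψ : H →* Multiplicative ℤ, Function.Surjective ψ := by
  refine surj_of_vchar hfg (vchar_of_eul P ?_)
  have h1 := hE Γ P hF hInf
  have h2 := trAug_eq_tr1 hF hT P.π P.pi_pi
  have h3 : trA P.π = trAug P.π := rfl
  rw [h3, h2]
  exact h1

/-- **Amenable `PD₄` groups have a subgroup of index at most two which maps onto `ℤ`.** -/
theorem vsurj (hE : StmtEul) {G : Type} [Group G] (P : PD4Z G) (hF : Folner G) :
    ∃ H : Subgroup G, H.index ≤ 2 ∧ H.FiniteIndex ∧
      ∃ ψ : H →* Multiplicative ℤ, Function.Surjective ψ := by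
  obtain ⟨Q⟩ := H81.stmtPDZ G P
  obtain ⟨S, N, hS, -⟩ := H838.stmtFP2 G 2 Q
  have hfg : Group.FG G := ⟨⟨S, hS.gen⟩⟩
  exact vsurj_pdg hE hF (H856.V1.torsion_free' G P) hfg
    (H237.stmtInf ℚ G 3 Q) Q

end Vale.Agent.P260.H103
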