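import Mathlib
import Vale.Agent.P260.H103.B1d
import Vale.Agent.P260.H81.Eul

/-!
# P260 climb, W5: amenable `PD₄` groups have a virtual character (unconditional)
-/

namespace Vale.Agent.P260.H103

open Vale.Agent.P260.H145 (PD4Z)

/-- **Every amenable `PD₄` group has a subgroup of index at most two which maps onto `ℤ`.** -/
theorem virtual_surj {G : Type} [Group G] (P : PD4Z G) (hF : Folner G) :
    ∃ H : Subgroup G, H.index ≤ 2 ∧ H.FiniteIndex ∧
      ∃ ψ : H →* Multiplicative ℤ, Function.Surjective ψ :=
  vsurj (fun Γ _ P hF hI => H81.stmtEul Γ P hF hI) P hF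

end Vale.Agent.P260.H103
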